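import Vale.Agent.P134.Periodic.Defs

/-!
# P134: integration by parts over period boxes
-/

noncomputable section

open MeasureTheory Set

namespace Vale.Agent.P134.Periodic

variable {m : ℕ}

/-- The data of a box: `T j > 0` are periods of the test functions for the axes off `S`, and on
the axes in `S` the test functions vanish outside the box. -/
structure BoxData (m : ℕ) where
  /-- lower corner -/
  lo : Fin (m + 1) → ℝ
  /-- upper corner -/
  hi : Fin (m + 1) → ℝ
  /-- the axes without periodicity -/
  S : Finset (Fin (m + 1))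
  le : lo ≤ hi

/-- Admissible for the box: periodic off `S`, zero on the faces of the axes in `S`. -/
def Adm (D : BoxData m) (F : (Fin (m + 1) → ℝ) → ℝ) : Prop :=
  ∀ i, (i ∉ D.S → ∀ x, F (x + Pi.single i (D.hi i - D.lo i)) = F x) ∧
    (i ∈ D.S → ∀ x, (x i = D.lo i ∨ x i = D.hi i) → F x = 0)

lemma continuous_pd {n : ℕ} {f : (Fin n → ℝ) → ℝ} (hf : ContDiff ℝ 1 f) (i : Fin n) :
    Continuous (pd f i) :=
  (hf.continuous_fderiv one_ne_zero).clm_apply continuous_const

lemma pd_translate {n : ℕ} {f : (Fin n → ℝ) → ℝ} {v : Fin n → ℝ} (h : ∀ x, f (x + v) = f x)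
    (i : Fin n) (x : Fin n → ℝ) : pd f i (x + v) = pd f i x := by
  have : fderiv ℝ (fun y => f (y + v)) x = fderiv ℝ f (x + v) := fderiv_comp_add_right v
  rw [funext h] at this
  rw [pd, pd, this]

lemma integrableOn_box {D : BoxData m} {f : (Fin (m + 1) → ℝ) → ℝ} (hf : Continuous f) :
    IntegrableOn f (Icc D.lo D.hi) :=
  hf.continuousOn.integrableOn_compact isCompact_Icc

/-- The integral of a derivative of an admissible function over the box vanishes. -/
lemma integral_pd_eq_zero (D : BoxData m) {F : (Fin (m + 1) → ℝ) → ℝ} (hF : ContDiff ℝ 1 F)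
    (hA : Adm D F) (i : Fin (m + 1)) : ∫ x in Icc D.lo D.hi, pd F i x = 0 := by
  classical
  set f : Fin (m + 1) → (Fin (m + 1) → ℝ) → ℝ := fun k x => if k = i then F x else 0 with hf
  set f' : Fin (m + 1) → (Fin (m + 1) → ℝ) → (Fin (m + 1) → ℝ) →L[ℝ] ℝ :=
    fun k x => if k = i then fderiv ℝ F x else 0 with hf'
  have hd : ∀ x k, HasFDerivAt (f k) (f' k x) x := fun x k => by
    by_cases hk : k = i
    · simp only [hf, hf', if_pos hk]
      exact (hF.differentiable one_ne_zero x).hasFDerivAt
    · simp only [hf, hf', if_neg hk]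
      exact hasFDerivAt_const (0 : ℝ) x
  have e : (fun x => ∑ k, f' k x (Pi.single k 1)) = pd F i := by
    funext x
    rw [Finset.sum_eq_single i]
    · simp [hf', pd]
    · intro k _ hk; simp [hf', hk]
    · simp
  have h := integral_divergence_of_hasFDerivAt_off_countable' D.lo D.hi D.le f f' ∅
    countable_empty (fun k => (continuous_iff_continuousAt.2 fun x => (hd x k).continuousAt).continuousOn)
    (fun x _ k => hd x k) (by rw [e]; exact integrableOn_box (continuous_pd hF i))
  rw [e] at h
  rw [h]
  refine Finset.sum_eq_zero fun k _ => ?_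
  by_cases hk : k = i
  · subst hk
    simp only [hf, if_true]
    by_cases hS : k ∈ D.S
    · have : ∀ y c, (c = D.lo k ∨ c = D.hi k) → F (Fin.insertNth k c y) = 0 :=
        fun y c hc => (hA k).2 hS _ (by simpa using hc)
      simp [this]
    · have : ∀ y : Fin m → ℝ, F (Fin.insertNth k (D.hi k) y) = F (Fin.insertNth k (D.lo k) y) := by
        intro y
        rw [← (hA k).1 hS (Fin.insertNth k (D.lo k) y)]
        congr 1
        funext j
        rcases Fin.eq_self_or_eq_succAbove k j with rfl | ⟨l, rfl⟩
        · simp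
        · simp [Fin.succAbove_ne]
      simp [this]
  · simp [hf, hk]

/-- Integration by parts. -/
lemma integral_ibp (D : BoxData m) {G F : (Fin (m + 1) → ℝ) → ℝ} (hG : ContDiff ℝ 1 G)
    (hF : ContDiff ℝ 1 F) (hA : Adm D fun x => G x * F x) (i : Fin (m + 1)) :
    ∫ x in Icc D.lo D.hi, G x * pd F i x = -∫ x in Icc D.lo D.hi, pd G i x * F x := by
  have h := integral_pd_eq_zero D (hG.mul hF) hA i
  have e : pd (fun x => G x * F x) i = fun x => G x * pd F i x + pd G i x * F x := by
    funext x
    rw [pd, fderiv_fun_mul (hG.differentiable one_ne_zero x) (hF.differentiable one_ne_zero x)]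
    simp [pd]
    ring
  rw [e, integral_add (integrableOn_box (hG.continuous.fun_mul (continuous_pd hF i)))
    (integrableOn_box ((continuous_pd hG i).fun_mul hF.continuous))] at h
  linarith

end Vale.Agent.P134.Periodic
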