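import Vale.Agent.P134.Periodic.Calculus

/-!
# P134: cut-offs in two coordinates
-/

noncomputable section

open Set Real

namespace Vale.Agent.P134.Periodic

variable {n : ℕ}

/-- The squared distance to `c` in the coordinates `a`, `b`. -/
def sq2 (a b : Fin n) (c x : Fin n → ℝ) : ℝ := (x a - c a) ^ 2 + (x b - c b) ^ 2

/-- The cut-off at scale `R`: one for `sq2 ≤ R²`, zero for `sq2 ≥ 4 R²`. -/
def zeta (a b : Fin n) (c : Fin n → ℝ) (R : ℝ) (x : Fin n → ℝ) : ℝ :=
  smoothTransition ((4 - sq2 a b c x / R ^ 2) / 3)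

lemma deriv_smoothTransition_of_not_mem {t : ℝ} (ht : t ≤ 0 ∨ 1 ≤ t) :
    deriv smoothTransition t = 0 := by
  rcases ht with ht | ht
  · refine IsLocalMin.deriv_eq_zero (Filter.Eventually.of_forall fun y => ?_)
    rw [smoothTransition.zero_of_nonpos ht]
    exact smoothTransition.nonneg y
  · refine IsLocalMax.deriv_eq_zero (Filter.Eventually.of_forall fun y => ?_)
    rw [smoothTransition.one_of_one_le ht]
    exact smoothTransition.le_one y

lemma exists_deriv_bound : ∃ C : ℝ, 0 ≤ C ∧ ∀ t, |deriv smoothTransition t| ≤ C := by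
  obtain ⟨C, hC⟩ := (isCompact_Icc (a := (0 : ℝ)) (b := 1)).exists_bound_of_continuousOn
    ((smoothTransition.contDiff (n := 1)).continuous_deriv le_rfl).continuousOn
  refine ⟨max C 0, le_max_right _ _, fun t => ?_⟩
  by_cases ht : t ∈ Icc (0 : ℝ) 1
  · exact ((Real.norm_eq_abs _).symm.trans_le (hC t ht)).trans (le_max_left _ _)
  · rw [deriv_smoothTransition_of_not_mem (by
      rcases le_or_gt t 0 with h | h
      · exact Or.inl h
      · exact Or.inr (le_of_not_ge fun h' => ht ⟨h.le, h'⟩))]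
    simp

lemma contDiff_zeta (a b : Fin n) (c : Fin n → ℝ) (R : ℝ) : ContDiff ℝ 1 (zeta a b c R) := by
  refine smoothTransition.contDiff.comp ?_
  refine (contDiff_const.sub (ContDiff.div_const ?_ _)).div_const _
  exact ((((contDiff_apply ℝ ℝ a)).sub contDiff_const).pow 2).add
    ((((contDiff_apply ℝ ℝ b)).sub contDiff_const).pow 2)

lemma zeta_mem (a b : Fin n) (c : Fin n → ℝ) (R : ℝ) (x : Fin n → ℝ) :
    0 ≤ zeta a b c R x ∧ zeta a b c R x ≤ 1 :=
  ⟨smoothTransition.nonneg _, smoothTransition.le_one _⟩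

lemma zeta_eq_one {a b : Fin n} {c x : Fin n → ℝ} {R : ℝ} (hR : 0 < R)
    (h : sq2 a b c x ≤ R ^ 2) : zeta a b c R x = 1 := by
  refine smoothTransition.one_of_one_le ?_
  have : sq2 a b c x / R ^ 2 ≤ 1 := (div_le_one (by positivity)).2 h
  linarith

lemma zeta_eq_zero {a b : Fin n} {c x : Fin n → ℝ} {R : ℝ} (hR : 0 < R)
    (h : 4 * R ^ 2 ≤ sq2 a b c x) : zeta a b c R x = 0 := by
  refine smoothTransition.zero_of_nonpos ?_
  have : 4 ≤ sq2 a b c x / R ^ 2 := (le_div_iff₀ (by positivity)).2 h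
  linarith

lemma zeta_mono {a b : Fin n} {c x : Fin n → ℝ} {R R' : ℝ} (hR : 0 < R) (h : R ≤ R') :
    zeta a b c R x ≤ zeta a b c R' x := by
  refine smoothTransition.monotone ?_
  have : sq2 a b c x / R' ^ 2 ≤ sq2 a b c x / R ^ 2 := by
    refine div_le_div_of_nonneg_left ?_ (by positivity) (pow_le_pow_left₀ hR.le h 2)
    unfold sq2; positivity
  linarith

lemma zeta_translate {a b j : Fin n} (hja : j ≠ a) (hjb : j ≠ b) (c : Fin n → ℝ) (R T : ℝ)
    (x : Fin n → ℝ) : zeta a b c R (x + Pi.single j T) = zeta a b c R x := by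
  simp [zeta, sq2, Ne.symm hja, Ne.symm hjb]

lemma zeta_face {a b i : Fin n} (hi : i = a ∨ i = b) {c x : Fin n → ℝ} {R B : ℝ} (hR : 0 < R)
    (hB : 2 * R ≤ B) (hx : x i = c i - B ∨ x i = c i + B) : zeta a b c R x = 0 := by
  refine zeta_eq_zero hR ?_
  have h : (x i - c i) ^ 2 = B ^ 2 := by rcases hx with hx | hx <;> rw [hx] <;> ring
  have h2 : (x i - c i) ^ 2 ≤ sq2 a b c x := by
    rcases hi with rfl | rfl <;> unfold sq2
    · linarith [sq_nonneg (x b - c b)]
    · linarith [sq_nonneg (x a - c a)]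
  nlinarith

/-- The gradient of a cut-off: bounded by a multiple of `1/R`, supported in the open annulus. -/
lemma exists_pd_zeta_bound : ∃ C : ℝ, 0 ≤ C ∧ ∀ (n : ℕ) (a b i : Fin n) (c x : Fin n → ℝ) (R : ℝ),
    0 < R → |pd (zeta a b c R) i x| ≤ C / R ∧
      (¬(R ^ 2 < sq2 a b c x ∧ sq2 a b c x < 4 * R ^ 2) → pd (zeta a b c R) i x = 0) := by
  obtain ⟨C, hC0, hC⟩ := exists_deriv_bound
  refine ⟨3 * C, by positivity, fun n a b i c x R hR => ?_⟩
  set t := (4 - sq2 a b c x / R ^ 2) / 3 with ht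
  set L : (Fin n → ℝ) →L[ℝ] ℝ :=
    (2 * (x a - c a)) • ContinuousLinearMap.proj (R := ℝ) (φ := fun _ : Fin n => ℝ) a +
      (2 * (x b - c b)) • ContinuousLinearMap.proj (R := ℝ) (φ := fun _ : Fin n => ℝ) b with hL
  have hq : HasFDerivAt (sq2 a b c) L x := by
    have ha := ((hasFDerivAt_apply (𝕜 := ℝ) (F' := fun _ : Fin n => ℝ) a x).sub_const (c a)).pow 2
    have hb := ((hasFDerivAt_apply (𝕜 := ℝ) (F' := fun _ : Fin n => ℝ) b x).sub_const (c b)).pow 2
    refine (ha.add hb).congr_fderiv ?_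
    simp [hL]
  have hz : HasFDerivAt (zeta a b c R)
      (deriv smoothTransition t • ((3 : ℝ)⁻¹ • -((R ^ 2)⁻¹ • L))) x := by
    refine ((smoothTransition.contDiff (n := 1)).differentiable one_ne_zero t).hasDerivAt.comp_hasFDerivAt x ?_
    have := ((hq.mul_const (R ^ 2)⁻¹).const_sub 4).mul_const (3 : ℝ)⁻¹
    simpa [div_eq_mul_inv] using this
  have hval : pd (zeta a b c R) i x = deriv smoothTransition t *
      ((3 : ℝ)⁻¹ * -((R ^ 2)⁻¹ * L (Pi.single i 1))) := by
    rw [pd, hz.fderiv]; simp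
  have hzero : ¬(R ^ 2 < sq2 a b c x ∧ sq2 a b c x < 4 * R ^ 2) →
      deriv smoothTransition t = 0 := fun h => by
    refine deriv_smoothTransition_of_not_mem ?_
    rw [not_and_or, not_lt, not_lt] at h
    rcases h with h | h
    · refine Or.inr ?_
      have : sq2 a b c x / R ^ 2 ≤ 1 := (div_le_one (by positivity)).2 h
      rw [ht]; linarith
    · refine Or.inl ?_
      have : 4 ≤ sq2 a b c x / R ^ 2 := (le_div_iff₀ (by positivity)).2 h
      rw [ht]; linarith
  refine ⟨?_, fun h => by rw [hval, hzero h, zero_mul]⟩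
  by_cases h : R ^ 2 < sq2 a b c x ∧ sq2 a b c x < 4 * R ^ 2
  · have hab : |x a - c a| ≤ 2 * R ∧ |x b - c b| ≤ 2 * R := by
      unfold sq2 at h
      constructor <;>
        exact abs_le_of_sq_le_sq (by nlinarith [sq_nonneg (x a - c a), sq_nonneg (x b - c b)])
          (by linarith)
    have hLb : |L (Pi.single i 1)| ≤ 8 * R := by
      have hs : ∀ k : Fin n, |(Pi.single i 1 : Fin n → ℝ) k| ≤ 1 := fun k => by
        by_cases hk : k = i <;> simp [Pi.single_apply, hk]
      simp only [hL, ContinuousLinearMap.add_apply, FunLike.coe_smul, Pi.smul_apply,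
        ContinuousLinearMap.proj_apply, smul_eq_mul]
      refine (abs_add_le _ _).trans ?_
      rw [abs_mul, abs_mul, abs_mul, abs_mul, abs_two]
      nlinarith [hs a, hs b, abs_nonneg (x a - c a), abs_nonneg (x b - c b),
        abs_nonneg ((Pi.single i 1 : Fin n → ℝ) a), abs_nonneg ((Pi.single i 1 : Fin n → ℝ) b)]
    rw [hval, abs_mul, abs_mul, abs_neg, abs_mul, abs_of_pos (show (0 : ℝ) < 3⁻¹ by norm_num),
      abs_of_pos (show (0 : ℝ) < (R ^ 2)⁻¹ by positivity)]
    calc |deriv smoothTransition t| * (3⁻¹ * ((R ^ 2)⁻¹ * |L (Pi.single i 1)|))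
        ≤ C * (3⁻¹ * ((R ^ 2)⁻¹ * (8 * R))) := by
          refine mul_le_mul (hC _) ?_ (by positivity) hC0
          gcongr
      _ ≤ 3 * C / R := by
          rw [show C * (3⁻¹ * ((R ^ 2)⁻¹ * (8 * R))) = (8 / 3 * C) / R by field_simp]
          gcongr
          linarith
  · rw [hval, hzero h, zero_mul, abs_zero]
    positivity

end Vale.Agent.P134.Periodic
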