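import Mathlib

/-!
# P134: monotone Allen-Cahn solutions that are periodic in all but two coordinates
-/

noncomputable section

namespace Vale.Agent.P134.Periodic

/-- The derivative of `f` along the `i`-th coordinate axis. -/
def pd {n : ℕ} (f : (Fin n → ℝ) → ℝ) (i : Fin n) (x : Fin n → ℝ) : ℝ :=
  fderiv ℝ f x (Pi.single i 1)

/-- An entire solution of `Δu = u³ - u` with values in `[-1, 1]` which increases along axis `a`. -/
structure IsMonotoneSolution {n : ℕ} (a : Fin n) (u : (Fin n → ℝ) → ℝ) : Prop where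
  smooth : ContDiff ℝ 2 u
  bdd : ∀ x, |u x| ≤ 1
  eqn : ∀ x, ∑ i, pd (pd u i) i x = u x ^ 3 - u x
  mono : ∀ x, 0 < pd u a x

/-- Periodicity along every coordinate axis other than `a` and `b`. -/
def IsPeriodicOff {n : ℕ} (a b : Fin n) (u : (Fin n → ℝ) → ℝ) : Prop :=
  ∀ j, j ≠ a → j ≠ b → ∃ T : ℝ, T ≠ 0 ∧ ∀ x, u (x + Pi.single j T) = u x

/-- One-dimensional: a function of `∑ e_i x_i` for a unit vector `e`. -/
def IsOneDimensional {n : ℕ} (u : (Fin n → ℝ) → ℝ) : Prop :=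
  ∃ (e : Fin n → ℝ) (h : ℝ → ℝ), ∑ i, e i ^ 2 = 1 ∧ ∀ x, u x = h (∑ i, e i * x i)

end Vale.Agent.P134.Periodic
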