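import Vale.Agent.P134.Periodic.Defs

/-!
# P134: the planar profile satisfies all hypotheses
-/

noncomputable section

open Real

namespace Vale.Agent.P134.Periodic

lemma hasDerivAt_tanh' (s : ℝ) : HasDerivAt tanh (1 - tanh s ^ 2) s := by
  have h := (hasDerivAt_sinh s).div (hasDerivAt_cosh s) (cosh_pos s).ne'
  rw [show tanh = fun x => sinh x / cosh x from funext tanh_eq_sinh_div_cosh]
  refine h.congr_deriv ?_
  have := (cosh_pos s).ne'
  field_simp

lemma exists_instance {n : ℕ} (a b : Fin n) :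
    ∃ u, IsMonotoneSolution a u ∧ IsPeriodicOff a b u := by
  set c : ℝ := (√2)⁻¹ with hc
  have hc0 : 0 < c := inv_pos.2 (sqrt_pos.2 two_pos)
  have hc2 : c ^ 2 = 1 / 2 := by rw [hc, inv_pow, sq_sqrt zero_le_two]; norm_num
  set u : (Fin n → ℝ) → ℝ := fun x => tanh (c * x a) with hu
  set L := ContinuousLinearMap.proj (R := ℝ) (φ := fun _ : Fin n => ℝ) a
  have hg : ∀ x, HasFDerivAt (fun y : Fin n → ℝ => c * y a) (c • L) x := fun x =>
    (hasFDerivAt_apply (𝕜 := ℝ) (F' := fun _ : Fin n => ℝ) a x).const_mul c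
  have h1 : ∀ x, HasFDerivAt u ((1 - u x ^ 2) • c • L) x := fun x =>
    HasDerivAt.comp_hasFDerivAt (h₂ := tanh) (f := fun y : Fin n → ℝ => c * y a) x
      (hasDerivAt_tanh' (c * x a)) (hg x)
  have hpd : ∀ i, pd u i = fun x => (1 - u x ^ 2) * (c * (Pi.single i 1 : Fin n → ℝ) a) := fun i => by
    funext x
    rw [pd, (h1 x).fderiv]
    simp [L]
  have h2 : ∀ i x, pd (pd u i) i x
      = -2 * u x * (1 - u x ^ 2) * (c * (Pi.single i 1 : Fin n → ℝ) a) ^ 2 := fun i x => by
    have h : HasFDerivAt (fun y => (1 - u y ^ 2) * (c * (Pi.single i 1 : Fin n → ℝ) a))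
        ((c * (Pi.single i 1 : Fin n → ℝ) a) • -((2 * u x) • ((1 - u x ^ 2) • c • L))) x := by
      refine (((h1 x).pow 2).const_sub 1 |>.mul_const _).congr_fderiv ?_
      simp
    rw [hpd i, pd, h.fderiv]
    simp [L]
    ring
  refine ⟨u, ⟨?_, fun x => (abs_tanh_lt_one _).le, fun x => ?_, fun x => ?_⟩, fun j hja _ => ?_⟩
  · have : ContDiff ℝ 2 tanh := by
      rw [show tanh = fun x => sinh x / cosh x from funext tanh_eq_sinh_div_cosh]
      exact contDiff_sinh.div contDiff_cosh fun x => (cosh_pos x).ne'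
    exact this.comp (contDiff_const.mul (contDiff_apply ℝ ℝ a))
  · simp only [h2, Pi.single_apply]
    rw [Finset.sum_eq_single a (fun i _ hi => by simp [Ne.symm hi]) (by simp)]
    simp [hc2]
    ring
  · rw [hpd]
    have : 0 < 1 - u x ^ 2 := sub_pos.2 ((sq_lt_one_iff_abs_lt_one _).2 (abs_tanh_lt_one _))
    simpa using mul_pos this hc0
  · exact ⟨1, one_ne_zero, fun x => by simp [hu, Ne.symm hja]⟩

end Vale.Agent.P134.Periodic
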