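import Vale.Agent.P134.Periodic.Weak

/-!
# P134: the Liouville argument
-/

noncomputable section

open MeasureTheory Set Real Filter Topology

namespace Vale.Agent.P134.Periodic.Setup

variable {m : ℕ} (P : Setup m)

/-- The squared gradient of the solution. -/
def grad2 (x : Fin (m + 1) → ℝ) : ℝ := ∑ i, pd P.u i x ^ 2

/-- `∂_i u_j - (u_j / u_a) ∂_i u_a`. -/
def defect (j i : Fin (m + 1)) (x : Fin (m + 1) → ℝ) : ℝ :=
  pd (pd P.u j) i x - pd P.u j x / pd P.u P.a x * pd (pd P.u P.a) i x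

lemma contDiff_pd (i : Fin (m + 1)) : ContDiff ℝ 1 (pd P.u i) :=
  (P.sol.smooth.fderiv_right (by norm_num)).clm_apply contDiff_const

lemma contDiff_u : ContDiff ℝ 1 P.u := P.sol.smooth.of_le (by norm_num)

lemma continuous_defect (j i : Fin (m + 1)) : Continuous (P.defect j i) :=
  (continuous_pd (P.contDiff_pd j) i).sub
    (((P.contDiff_pd j).continuous.div (P.contDiff_pd P.a).continuous fun x => (P.sol.mono x).ne').mul
      (continuous_pd (P.contDiff_pd P.a) i))

/-- The inequality behind the Liouville theorem. -/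
lemma picone {B : ℝ} (hB : 0 ≤ B) (j : Fin (m + 1)) {η : (Fin (m + 1) → ℝ) → ℝ}
    (hη : ContDiff ℝ 1 η) (hηp : P.Per η) (hηv : P.Vanishes B η) :
    ∫ x in Icc (P.box B hB).lo (P.box B hB).hi, η x ^ 2 * ∑ i, P.defect j i x ^ 2 ≤
      4 * ∫ x in Icc (P.box B hB).lo (P.box B hB).hi, pd P.u j x ^ 2 * ∑ i, pd η i x ^ 2 := by
  set D := P.box B hB
  set v := pd P.u j with hv
  set w := pd P.u P.a with hw
  have hvc : ContDiff ℝ 1 v := P.contDiff_pd j
  have hwc : ContDiff ℝ 1 w := P.contDiff_pd P.a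
  have hw0 : ∀ x, w x ≠ 0 := fun x => (P.sol.mono x).ne'
  set φ := fun x => v x * (η x * η x) with hφ
  set ψ := fun x => v x * v x / w x * (η x * η x) with hψ
  have hφc : ContDiff ℝ 1 φ := hvc.mul (hη.mul hη)
  have hψc : ContDiff ℝ 1 ψ := ((hvc.mul hvc).div hwc hw0).mul (hη.mul hη)
  have hvp : P.Per v := P.per_pd P.per_u j
  have hwp : P.Per w := P.per_pd P.per_u P.a
  have hφp : P.Per φ := fun k h1 h2 x => by simp only [hφ, hvp k h1 h2 x, hηp k h1 h2 x]
  have hψp : P.Per ψ := fun k h1 h2 x => by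
    simp only [hψ, hvp k h1 h2 x, hwp k h1 h2 x, hηp k h1 h2 x]
  have hφv : P.Vanishes B φ := fun i hi x hx => by simp [hφ, hηv i hi x hx]
  have hψv : P.Vanishes B ψ := fun i hi x hx => by simp [hψ, hηv i hi x hx]
  have e1 := P.weak_deriv hB j hφc hφp hφv
  have e2 := P.weak_deriv hB P.a hψc hψp hψv
  simp only [← hv, ← hw] at e1 e2
  have e3 : ∀ x, (3 * P.u x ^ 2 - 1) * w x * ψ x = (3 * P.u x ^ 2 - 1) * v x * φ x := fun x => by
    have := hw0 x
    simp only [hφ, hψ]
    field_simp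
  simp only [e3] at e2
  have hi1 : ∀ i, IntegrableOn (fun x => pd v i x * pd φ i x) (Icc D.lo D.hi) := fun i =>
    integrableOn_box ((continuous_pd hvc i).mul (continuous_pd hφc i))
  have hi2 : ∀ i, IntegrableOn (fun x => pd w i x * pd ψ i x) (Icc D.lo D.hi) := fun i =>
    integrableOn_box ((continuous_pd hwc i).mul (continuous_pd hψc i))
  have key : ∫ x in Icc D.lo D.hi, ∑ i, (pd v i x * pd φ i x - pd w i x * pd ψ i x) = 0 := by
    rw [integral_finsetSum _ fun i _ => (hi1 i).fun_sub (hi2 i)]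
    simp only [integral_sub (hi1 _) (hi2 _), Finset.sum_sub_distrib]
    linarith
  have hptw : ∀ x, (1 / 2 : ℝ) * (η x ^ 2 * ∑ i, P.defect j i x ^ 2)
      - 2 * (v x ^ 2 * ∑ i, pd η i x ^ 2) ≤ ∑ i, (pd v i x * pd φ i x - pd w i x * pd ψ i x) := by
    intro x
    simp only [Finset.mul_sum, ← Finset.sum_sub_distrib]
    refine Finset.sum_le_sum fun i _ => ?_
    have hdv := (hvc.differentiable one_ne_zero x).hasFDerivAt
    have hdw := (hwc.differentiable one_ne_zero x).hasFDerivAt
    have hdη := (hη.differentiable one_ne_zero x).hasFDerivAt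
    have hφd := hdv.mul (hdη.mul hdη)
    have hwi : HasFDerivAt (fun y => (w y)⁻¹) (-(w x ^ 2)⁻¹ • fderiv ℝ w x) x :=
      (hasDerivAt_inv (hw0 x)).comp_hasFDerivAt x hdw
    have hψd := ((hdv.mul hdv).mul hwi).mul (hdη.mul hdη)
    have eφ : pd φ i x = pd v i x * η x ^ 2 + 2 * v x * η x * pd η i x := by
      rw [pd, show φ = v * (η * η) from rfl, hφd.fderiv]
      simp [pd]
      ring
    have eψ : pd ψ i x = 2 * v x * pd v i x / w x * η x ^ 2
        - v x ^ 2 * pd w i x / w x ^ 2 * η x ^ 2 + 2 * v x ^ 2 / w x * η x * pd η i x := by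
      rw [pd, show ψ = v * v * (fun y => (w y)⁻¹) * (η * η) from funext fun y => by
        simp [hψ, div_eq_mul_inv], hψd.fderiv]
      simp [pd]
      ring
    have e : pd v i x * pd φ i x - pd w i x * pd ψ i x
        = η x ^ 2 * P.defect j i x ^ 2 + 2 * v x * η x * pd η i x * P.defect j i x := by
      rw [eφ, eψ, defect, ← hv, ← hw]
      have := hw0 x
      field_simp
      ring
    rw [e]
    nlinarith [sq_nonneg (η x * P.defect j i x + 2 * (v x * pd η i x))]
  have i1 : IntegrableOn (fun x => η x ^ 2 * ∑ i, P.defect j i x ^ 2) (Icc D.lo D.hi) :=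
    integrableOn_box ((hη.continuous.pow 2).mul
      (continuous_finsetSum _ fun i _ => (P.continuous_defect j i).pow 2))
  have i2 : IntegrableOn (fun x => v x ^ 2 * ∑ i, pd η i x ^ 2) (Icc D.lo D.hi) :=
    integrableOn_box ((hvc.continuous.pow 2).mul
      (continuous_finsetSum _ fun i _ => (continuous_pd hη i).pow 2))
  have i3 : IntegrableOn (fun x => ∑ i, (pd v i x * pd φ i x - pd w i x * pd ψ i x))
      (Icc D.lo D.hi) := integrable_finsetSum _ fun i _ => (hi1 i).fun_sub (hi2 i)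
  have h := setIntegral_mono (IntegrableOn.fun_sub (i1.const_mul _) (i2.const_mul _)) i3 hptw
  rw [integral_sub (i1.const_mul _) (i2.const_mul _), integral_const_mul, integral_const_mul,
    key] at h
  linarith

/-- The energy inequality of the solution itself. -/
lemma caccioppoli {B : ℝ} (hB : 0 ≤ B) {η : (Fin (m + 1) → ℝ) → ℝ}
    (hη : ContDiff ℝ 1 η) (hηp : P.Per η) (hηv : P.Vanishes B η) :
    ∫ x in Icc (P.box B hB).lo (P.box B hB).hi, η x ^ 2 * P.grad2 x ≤
      2 * (∫ x in Icc (P.box B hB).lo (P.box B hB).hi, η x ^ 2) +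
        4 * ∫ x in Icc (P.box B hB).lo (P.box B hB).hi, ∑ i, pd η i x ^ 2 := by
  set D := P.box B hB
  have hu := P.contDiff_u
  set φ := fun x => P.u x * (η x * η x) with hφ
  have hφc : ContDiff ℝ 1 φ := hu.mul (hη.mul hη)
  have hφp : P.Per φ := fun k h1 h2 x => by simp only [hφ, P.per_u k h1 h2 x, hηp k h1 h2 x]
  have hφv : P.Vanishes B φ := fun i hi x hx => by simp [hφ, hηv i hi x hx]
  have e1 := P.weak_eqn hB hφc hφp hφv
  have hi1 : ∀ i, IntegrableOn (fun x => pd P.u i x * pd φ i x) (Icc D.lo D.hi) := fun i =>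
    integrableOn_box ((continuous_pd hu i).mul (continuous_pd hφc i))
  have i0 : IntegrableOn (fun x => (P.u x ^ 3 - P.u x) * φ x) (Icc D.lo D.hi) :=
    integrableOn_box (((hu.continuous.pow 3).sub hu.continuous).mul hφc.continuous)
  rw [← integral_finsetSum _ (fun i _ => hi1 i)] at e1
  have key : ∫ x in Icc D.lo D.hi,
      ((∑ i, pd P.u i x * pd φ i x) + (P.u x ^ 3 - P.u x) * φ x) = 0 := by
    rw [integral_add (integrable_finsetSum _ fun i _ => hi1 i) i0]
    linarith
  have hptw : ∀ x, (1 / 2 : ℝ) * (η x ^ 2 * P.grad2 x) - η x ^ 2 - 2 * ∑ i, pd η i x ^ 2 ≤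
      (∑ i, pd P.u i x * pd φ i x) + (P.u x ^ 3 - P.u x) * φ x := by
    intro x
    have hu1 : P.u x ^ 2 ≤ 1 := (sq_le_one_iff_abs_le_one _).2 (P.sol.bdd x)
    have h1 : -η x ^ 2 ≤ (P.u x ^ 3 - P.u x) * φ x := by
      have : (P.u x ^ 3 - P.u x) * φ x = (P.u x ^ 4 - P.u x ^ 2) * η x ^ 2 := by
        simp only [hφ]; ring
      rw [this]
      nlinarith [mul_le_mul_of_nonneg_right hu1 (sq_nonneg (η x)), pow_two_nonneg (P.u x ^ 2),
        mul_nonneg (pow_two_nonneg (P.u x ^ 2)) (sq_nonneg (η x))]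
    have h2 : (1 / 2 : ℝ) * (η x ^ 2 * P.grad2 x) - 2 * ∑ i, pd η i x ^ 2 ≤
        ∑ i, pd P.u i x * pd φ i x := by
      simp only [grad2, Finset.mul_sum, ← Finset.sum_sub_distrib]
      refine Finset.sum_le_sum fun i _ => ?_
      have hdu := (hu.differentiable one_ne_zero x).hasFDerivAt
      have hdη := (hη.differentiable one_ne_zero x).hasFDerivAt
      have e : pd φ i x = pd P.u i x * η x ^ 2 + 2 * P.u x * η x * pd η i x := by
        rw [pd, show φ = P.u * (η * η) from rfl, (hdu.mul (hdη.mul hdη)).fderiv]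
        simp [pd]
        ring
      rw [e]
      nlinarith [sq_nonneg (η x * pd P.u i x + 2 * (P.u x * pd η i x)),
        mul_le_mul_of_nonneg_right hu1 (sq_nonneg (pd η i x))]
    linarith
  have hg : Continuous P.grad2 := continuous_finsetSum _ fun i _ => (continuous_pd hu i).pow 2
  have i1 : IntegrableOn (fun x => η x ^ 2 * P.grad2 x) (Icc D.lo D.hi) :=
    integrableOn_box ((hη.continuous.pow 2).mul hg)
  have i2 : IntegrableOn (fun x => η x ^ 2) (Icc D.lo D.hi) := integrableOn_box (hη.continuous.pow 2)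
  have i3 : IntegrableOn (fun x => ∑ i, pd η i x ^ 2) (Icc D.lo D.hi) :=
    integrableOn_box (continuous_finsetSum _ fun i _ => (continuous_pd hη i).pow 2)
  have i4 : IntegrableOn (fun x => (∑ i, pd P.u i x * pd φ i x) + (P.u x ^ 3 - P.u x) * φ x)
      (Icc D.lo D.hi) := (integrable_finsetSum _ fun i _ => hi1 i).fun_add i0
  have h := setIntegral_mono
    (IntegrableOn.fun_sub (IntegrableOn.fun_sub (i1.const_mul _) i2) (i3.const_mul _)) i4 hptw
  rw [key, integral_sub (IntegrableOn.fun_sub (i1.const_mul _) i2) (i3.const_mul _),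
    integral_sub (i1.const_mul _) i2, integral_const_mul, integral_const_mul] at h
  linarith

/-- The product of the periods, padded by one. -/
def vol : ℝ := ∏ j, max 1 (P.T j)

/-- A function supported in the cylinder of radius `2 R` integrates like `R²`. -/
lemma integral_le_area {B R : ℝ} (hR : 1 ≤ R) (hRB : 2 * R ≤ B) (hB : 0 ≤ B)
    {F : (Fin (m + 1) → ℝ) → ℝ} (hF : Continuous F) {C : ℝ} (hC : 0 ≤ C) (hle : ∀ x, F x ≤ C)
    (h0 : ∀ x, 4 * R ^ 2 ≤ sq2 P.a P.b P.c x → F x = 0) :
    ∫ x in Icc (P.box B hB).lo (P.box B hB).hi, F x ≤ C * (16 * R ^ 2 * P.vol) := by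
  classical
  set E := P.box (2 * R) (by linarith) with hE
  have hsub : Icc E.lo E.hi ⊆ Icc (P.box B hB).lo (P.box B hB).hi := by
    refine Icc_subset_Icc (fun k => ?_) fun k => ?_ <;>
      by_cases hk : k = P.a ∨ k = P.b <;> simp [hE, box, hk] <;> linarith
  rw [setIntegral_eq_of_subset_of_forall_sdiff_eq_zero measurableSet_Icc hsub ?_]
  · calc ∫ x in Icc E.lo E.hi, F x ≤ ∫ _x in Icc E.lo E.hi, C :=
          setIntegral_mono (integrableOn_box hF) (integrableOn_box continuous_const) hle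
      _ = C * ∏ k, (E.hi k - E.lo k) := by
          rw [setIntegral_const, smul_eq_mul, mul_comm, measureReal_def, Real.volume_Icc_pi_toReal E.le]
      _ ≤ C * (16 * R ^ 2 * P.vol) := by
          refine mul_le_mul_of_nonneg_left ?_ hC
          calc ∏ k, (E.hi k - E.lo k)
              ≤ ∏ k, (if k ∈ ({P.a, P.b} : Finset _) then 4 * R else 1) * max 1 (P.T k) := by
                refine Finset.prod_le_prod (fun k _ => sub_nonneg.2 (E.le k)) fun k _ => ?_
                by_cases hk : k = P.a ∨ k = P.b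
                · simp [hE, box, hk]
                  nlinarith [le_max_left 1 (P.T k)]
                · simp [hE, box, hk]
            _ = (4 * R) ^ ({P.a, P.b} : Finset (Fin (m + 1))).card * P.vol := by
                rw [Finset.prod_mul_distrib, Finset.prod_ite_mem, Finset.univ_inter,
                  Finset.prod_const, vol]
            _ ≤ (4 * R) ^ 2 * P.vol := by
                refine mul_le_mul_of_nonneg_right (pow_le_pow_right₀ (by linarith) Finset.card_le_two) ?_
                exact Finset.prod_nonneg fun k _ => le_trans zero_le_one (le_max_left _ _)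
            _ = _ := by ring
  · rintro x ⟨hxB, hxE⟩
    refine h0 x ?_
    by_contra hlt
    push Not at hlt
    refine hxE ⟨fun k => ?_, fun k => ?_⟩ <;>
      by_cases hk : k = P.a ∨ k = P.b <;> simp only [hE, box, hk, if_true, if_false]
    · rcases hk with rfl | rfl <;> unfold sq2 at hlt <;>
        nlinarith [sq_nonneg (x P.a - P.c P.a), sq_nonneg (x P.b - P.c P.b)]
    · have := hxB.1 k; simpa [box, hk] using this
    · rcases hk with rfl | rfl <;> unfold sq2 at hlt <;>
        nlinarith [sq_nonneg (x P.a - P.c P.a), sq_nonneg (x P.b - P.c P.b)]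
    · have := hxB.2 k; simpa [box, hk] using this

/-- The gradient term of a cut-off is bounded independently of the scale. -/
lemma exists_scale_bound : ∃ K : ℝ, 0 ≤ K ∧ ∀ (B R : ℝ) (hB : 0 ≤ B) (j : Fin (m + 1)),
    1 ≤ R → 4 * R ≤ B → ∫ x in Icc (P.box B hB).lo (P.box B hB).hi,
      pd P.u j x ^ 2 * ∑ i, pd (zeta P.a P.b P.c R) i x ^ 2 ≤ K := by
  obtain ⟨C, hC0, hC⟩ := exists_pd_zeta_bound
  set N : ℝ := (m : ℝ) + 1 with hN
  have hvol : 0 ≤ P.vol := Finset.prod_nonneg fun k _ => le_trans zero_le_one (le_max_left _ _)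
  refine ⟨N * C ^ 2 * ((2 + 4 * (N * C ^ 2)) * (64 * P.vol)), by positivity,
    fun B R hB j hR hRB => ?_⟩
  set z := zeta P.a P.b P.c (2 * R) with hz
  have hzc : ContDiff ℝ 1 z := contDiff_zeta _ _ _ _
  have hs : ∀ r x, 0 < r → ∑ i, pd (zeta P.a P.b P.c r) i x ^ 2 ≤ N * (C / r) ^ 2 := fun r x hr => by
    calc ∑ i, pd (zeta P.a P.b P.c r) i x ^ 2 ≤ ∑ _i : Fin (m + 1), (C / r) ^ 2 :=
          Finset.sum_le_sum fun i _ => sq_le_sq' (abs_le.1 (hC _ P.a P.b i P.c x r hr).1).1
            (abs_le.1 (hC _ P.a P.b i P.c x r hr).1).2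
      _ = _ := by simp [hN]
  have hE : ∫ x in Icc (P.box B hB).lo (P.box B hB).hi, z x ^ 2 * P.grad2 x ≤
      (2 + 4 * (N * C ^ 2)) * (64 * P.vol) * R ^ 2 := by
    refine (P.caccioppoli hB hzc (P.per_zeta _) (P.vanishes_zeta (by linarith) (by linarith))).trans ?_
    have a1 := P.integral_le_area (R := 2 * R) (by linarith) (by linarith) hB
      (hzc.continuous.pow 2) zero_le_one (fun x => by
        simpa using pow_le_one₀ (n := 2) (zeta_mem P.a P.b P.c (2 * R) x).1
          (zeta_mem P.a P.b P.c (2 * R) x).2)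
      (fun x hx => by simp [hz, zeta_eq_zero (by linarith : (0 : ℝ) < 2 * R) hx])
    have a2 := P.integral_le_area (R := 2 * R) (by linarith) (by linarith) hB
      (continuous_finsetSum _ fun i _ => (continuous_pd hzc i).pow 2)
      (show 0 ≤ N * (C / (2 * R)) ^ 2 by positivity) (fun x => hs _ x (by linarith))
      (fun x hx => Finset.sum_eq_zero fun i _ => by
        simp [hz, (hC _ P.a P.b i P.c x (2 * R) (by linarith)).2 fun h => absurd h.2 (not_lt.2 hx)])
    have h3 : N * (C / (2 * R)) ^ 2 ≤ N * C ^ 2 := by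
      refine mul_le_mul_of_nonneg_left ?_ (by positivity)
      exact pow_le_pow_left₀ (by positivity) (div_le_self hC0 (by linarith)) 2
    have h4 := mul_le_mul_of_nonneg_right h3 (show 0 ≤ 16 * (2 * R) ^ 2 * P.vol by positivity)
    calc _ ≤ 2 * (1 * (16 * (2 * R) ^ 2 * P.vol)) + 4 * (N * C ^ 2 * (16 * (2 * R) ^ 2 * P.vol)) :=
          add_le_add (mul_le_mul_of_nonneg_left a1 zero_le_two)
            (mul_le_mul_of_nonneg_left (a2.trans h4) (by norm_num))
      _ = _ := by ring
  have hptw : ∀ x, pd P.u j x ^ 2 * ∑ i, pd (zeta P.a P.b P.c R) i x ^ 2 ≤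
      N * (C / R) ^ 2 * (z x ^ 2 * P.grad2 x) := by
    intro x
    have hg0 : pd P.u j x ^ 2 ≤ P.grad2 x :=
      Finset.single_le_sum (f := fun i => pd P.u i x ^ 2) (fun i _ => sq_nonneg _) (Finset.mem_univ j)
    by_cases h : R ^ 2 < sq2 P.a P.b P.c x ∧ sq2 P.a P.b P.c x < 4 * R ^ 2
    · rw [show z x = 1 from zeta_eq_one (by linarith) (by nlinarith), one_pow, one_mul]
      calc pd P.u j x ^ 2 * ∑ i, pd (zeta P.a P.b P.c R) i x ^ 2
          ≤ P.grad2 x * (N * (C / R) ^ 2) :=
            mul_le_mul hg0 (hs R x (by linarith)) (Finset.sum_nonneg fun i _ => sq_nonneg _)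
              ((sq_nonneg _).trans hg0)
        _ = _ := by ring
    · rw [Finset.sum_eq_zero fun i _ => by simp [(hC _ P.a P.b i P.c x R (by linarith)).2 h],
        mul_zero]
      exact mul_nonneg (by positivity) (mul_nonneg (sq_nonneg _) ((sq_nonneg _).trans hg0))
  have hzR : ContDiff ℝ 1 (zeta P.a P.b P.c R) := contDiff_zeta _ _ _ _
  have c1 : Continuous fun x => pd P.u j x ^ 2 * ∑ i, pd (zeta P.a P.b P.c R) i x ^ 2 :=
    ((P.contDiff_pd j).continuous.pow 2).mul
      (continuous_finsetSum _ fun i _ => (continuous_pd hzR i).pow 2)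
  have c2 : Continuous fun x => N * (C / R) ^ 2 * (z x ^ 2 * P.grad2 x) :=
    continuous_const.mul ((hzc.continuous.pow 2).mul
      (continuous_finsetSum _ fun i _ => (continuous_pd P.contDiff_u i).pow 2))
  refine (setIntegral_mono (integrableOn_box c1) (integrableOn_box c2) hptw).trans ?_
  rw [integral_const_mul]
  refine (mul_le_mul_of_nonneg_left hE (by positivity)).trans (le_of_eq ?_)
  have : R ≠ 0 := by linarith
  field_simp

/-- The defect vanishes at the centre. -/
theorem defect_eq_zero (j i : Fin (m + 1)) : P.defect j i P.c = 0 := by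
  obtain ⟨K₀, hK₀, hK⟩ := P.exists_scale_bound
  obtain ⟨C, hC0, hC⟩ := exists_pd_zeta_bound
  set G := fun x => zeta P.a P.b P.c 1 x ^ 2 * ∑ l, P.defect j l x ^ 2 with hG
  have hGc : Continuous G := ((contDiff_zeta _ _ _ _).continuous.pow 2).mul
    (continuous_finsetSum _ fun l _ => (P.continuous_defect j l).pow 2)
  have hG0 : ∀ x, 0 ≤ G x := fun x =>
    mul_nonneg (sq_nonneg _) (Finset.sum_nonneg fun l _ => sq_nonneg _)
  set E := P.box 2 (by norm_num) with hE
  have hsmall : ∀ N : ℕ, 1 ≤ N → ∫ x in Icc E.lo E.hi, G x ≤ 4 * K₀ / N := by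
    intro N hN
    have hN' : (0 : ℝ) < N := by exact_mod_cast hN
    set B : ℝ := 4 * 2 ^ N with hB'
    have hB : 0 ≤ B := by positivity
    have hp : ∀ k, k < N → (2 : ℝ) ^ k ≤ 2 ^ N := fun k hk => pow_le_pow_right₀ one_le_two hk.le
    set η := fun x => (N : ℝ)⁻¹ * ∑ k ∈ Finset.range N, zeta P.a P.b P.c (2 ^ k) x with hη
    have hηc : ContDiff ℝ 1 η :=
      contDiff_const.mul (ContDiff.sum fun k _ => contDiff_zeta _ _ _ _)
    have hηp : P.Per η := fun l h1 h2 x => by simp only [hη, P.per_zeta _ l h1 h2 x]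
    have hηv : P.Vanishes B η := fun l hl x hx => by
      simp only [hη]
      rw [Finset.sum_eq_zero fun k hk => P.vanishes_zeta (by positivity)
        (by have := hp k (Finset.mem_range.1 hk); linarith [pow_pos (two_pos (α := ℝ)) k]) l hl x hx,
        mul_zero]
    have hηd : ∀ x l, pd η l x ^ 2
        = (N : ℝ)⁻¹ ^ 2 * ∑ k ∈ Finset.range N, pd (zeta P.a P.b P.c (2 ^ k)) l x ^ 2 := by
      intro x l
      have hd : HasFDerivAt η ((N : ℝ)⁻¹ • ∑ k ∈ Finset.range N,
          fderiv ℝ (zeta P.a P.b P.c (2 ^ k)) x) x :=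
        (HasFDerivAt.fun_sum fun k _ =>
          ((contDiff_zeta P.a P.b P.c (2 ^ k)).differentiable one_ne_zero x).hasFDerivAt).const_mul _
      have e : pd η l x = (N : ℝ)⁻¹ * ∑ k ∈ Finset.range N, pd (zeta P.a P.b P.c (2 ^ k)) l x := by
        rw [pd, hd.fderiv]; simp [pd]
      rw [e, mul_pow, sq (∑ k ∈ Finset.range N, pd (zeta P.a P.b P.c (2 ^ k)) l x),
        Finset.sum_mul_sum]
      congr 1
      refine Finset.sum_congr rfl fun k hk => ?_
      rw [Finset.sum_eq_single_of_mem k hk, sq]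
      intro k' _ hne
      by_contra h
      rw [mul_eq_zero, not_or] at h
      have h1 : ((2 : ℝ) ^ k) ^ 2 < sq2 P.a P.b P.c x ∧ sq2 P.a P.b P.c x < 4 * (2 ^ k) ^ 2 := by
        by_contra hn; exact h.1 ((hC _ _ _ l _ x _ (by positivity)).2 hn)
      have h2 : ((2 : ℝ) ^ k') ^ 2 < sq2 P.a P.b P.c x ∧ sq2 P.a P.b P.c x < 4 * (2 ^ k') ^ 2 := by
        by_contra hn; exact h.2 ((hC _ _ _ l _ x _ (by positivity)).2 hn)
      have e4 : ∀ q : ℕ, 4 * ((2 : ℝ) ^ q) ^ 2 = (2 ^ (q + 1)) ^ 2 := fun q => by ring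
      rcases lt_or_gt_of_ne hne with hlt | hlt
      · have := pow_le_pow_left₀ (by positivity) (pow_le_pow_right₀ (one_le_two (α := ℝ))
          (show _ + 1 ≤ _ from hlt)) 2
        rw [e4] at h2; linarith [h1.1, h2.2]
      · have := pow_le_pow_left₀ (by positivity) (pow_le_pow_right₀ (one_le_two (α := ℝ))
          (show _ + 1 ≤ _ from hlt)) 2
        rw [e4] at h1; linarith [h2.1, h1.2]
    have hgrad : ∫ x in Icc (P.box B hB).lo (P.box B hB).hi,
        pd P.u j x ^ 2 * ∑ l, pd η l x ^ 2 ≤ K₀ / N := by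
      have e : ∀ x, pd P.u j x ^ 2 * ∑ l, pd η l x ^ 2 = (N : ℝ)⁻¹ ^ 2 * ∑ k ∈ Finset.range N,
          pd P.u j x ^ 2 * ∑ l, pd (zeta P.a P.b P.c (2 ^ k)) l x ^ 2 := fun x => by
        simp only [hηd, Finset.mul_sum]
        rw [Finset.sum_comm]
        exact Finset.sum_congr rfl fun k _ => Finset.sum_congr rfl fun l _ => by ring
      simp only [e]
      have hci : ∀ k : ℕ, IntegrableOn (fun x =>
          pd P.u j x ^ 2 * ∑ l, pd (zeta P.a P.b P.c (2 ^ k)) l x ^ 2)
          (Icc (P.box B hB).lo (P.box B hB).hi) := fun k => integrableOn_box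
        (((P.contDiff_pd j).continuous.pow 2).mul (continuous_finsetSum _ fun l _ =>
          (continuous_pd (contDiff_zeta P.a P.b P.c (2 ^ k)) l).pow 2))
      rw [integral_const_mul, integral_finsetSum _ fun k _ => hci k]
      calc (N : ℝ)⁻¹ ^ 2 * ∑ k ∈ Finset.range N, ∫ x in Icc (P.box B hB).lo (P.box B hB).hi,
            pd P.u j x ^ 2 * ∑ l, pd (zeta P.a P.b P.c (2 ^ k)) l x ^ 2
          ≤ (N : ℝ)⁻¹ ^ 2 * ∑ _k ∈ Finset.range N, K₀ := by
            refine mul_le_mul_of_nonneg_left (Finset.sum_le_sum fun k hk => ?_) (by positivity)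
            exact hK B _ hB j (one_le_pow₀ one_le_two)
              (by have := hp k (Finset.mem_range.1 hk); linarith)
        _ = K₀ / N := by simp; field_simp
    have hle : ∀ x, G x ≤ η x ^ 2 * ∑ l, P.defect j l x ^ 2 := by
      intro x
      refine mul_le_mul_of_nonneg_right (pow_le_pow_left₀ (zeta_mem _ _ _ _ _).1 ?_ 2)
        (Finset.sum_nonneg fun l _ => sq_nonneg _)
      rw [hη, le_inv_mul_iff₀ hN']
      calc (N : ℝ) * zeta P.a P.b P.c 1 x = ∑ _k ∈ Finset.range N, zeta P.a P.b P.c 1 x := by simp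
        _ ≤ _ := Finset.sum_le_sum fun k _ => zeta_mono one_pos (one_le_pow₀ one_le_two)
    have hsub : Icc E.lo E.hi ⊆ Icc (P.box B hB).lo (P.box B hB).hi := by
      have : (2 : ℝ) ≤ B := by
        have := one_le_pow₀ (n := N) (one_le_two (α := ℝ)); linarith
      refine Icc_subset_Icc (fun k => ?_) fun k => ?_ <;>
        by_cases hk : k = P.a ∨ k = P.b <;> simp [hE, box, hk] <;> linarith
    have hηi : IntegrableOn (fun x => η x ^ 2 * ∑ l, P.defect j l x ^ 2)
        (Icc (P.box B hB).lo (P.box B hB).hi) := integrableOn_box ((hηc.continuous.pow 2).mul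
      (continuous_finsetSum _ fun l _ => (P.continuous_defect j l).pow 2))
    calc ∫ x in Icc E.lo E.hi, G x
        ≤ ∫ x in Icc (P.box B hB).lo (P.box B hB).hi, G x :=
          setIntegral_mono_set (integrableOn_box hGc) (Eventually.of_forall hG0)
            (Eventually.of_forall hsub)
      _ ≤ ∫ x in Icc (P.box B hB).lo (P.box B hB).hi, η x ^ 2 * ∑ l, P.defect j l x ^ 2 :=
          setIntegral_mono (integrableOn_box hGc) hηi hle
      _ ≤ _ := P.picone hB j hηc hηp hηv
      _ ≤ 4 * (K₀ / N) := by linarith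
      _ = _ := by ring
  have hint : ∫ x in Icc E.lo E.hi, G x = 0 := by
    refine le_antisymm ?_ (setIntegral_nonneg measurableSet_Icc fun x _ => hG0 x)
    exact ge_of_tendsto (tendsto_const_div_atTop_nhds_zero_nat (4 * K₀))
      (Eventually.mono (eventually_ge_atTop 1) hsmall)
  by_contra hne
  have hc1 : zeta P.a P.b P.c 1 P.c = 1 := zeta_eq_one one_pos (by simp [sq2])
  have hGpos : 0 < G P.c := by
    simp only [hG, hc1, one_pow, one_mul]
    exact lt_of_lt_of_le (by positivity)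
      (Finset.single_le_sum (f := fun l => P.defect j l P.c ^ 2) (fun l _ => sq_nonneg _)
        (Finset.mem_univ i))
  have hpos : 0 < ∫ x in Icc E.lo E.hi, G x := by
    rw [setIntegral_pos_iff_support_of_nonneg_ae (Eventually.of_forall hG0) (integrableOn_box hGc)]
    set U := {x | 0 < G x} ∩ Set.pi univ fun k => Ioo (E.lo k) (E.hi k)
    have hU : IsOpen U := (isOpen_lt continuous_const hGc).inter
      (isOpen_set_pi finite_univ fun k _ => isOpen_Ioo)
    refine lt_of_lt_of_le (hU.measure_pos volume ⟨P.c, hGpos, fun k _ => ?_⟩) (measure_mono ?_)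
    · by_cases hk : k = P.a ∨ k = P.b <;> simp [hE, box, hk, P.T_pos k]
    · rintro x ⟨hx, hxI⟩
      exact ⟨fun h => absurd h (ne_of_gt hx),
        fun k => (hxI k trivial).1.le, fun k => (hxI k trivial).2.le⟩
  linarith

end Vale.Agent.P134.Periodic.Setup
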