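import Vale.Agent.P134.Periodic.Liouville

/-!
# P134: the one-dimensional conclusion
-/

noncomputable section

open Real

namespace Vale.Agent.P134.Periodic

/-- Vanishing defects make every derivative a multiple of `u_a`, so the solution is planar. -/
theorem of_defect_eq_zero {m : ℕ} (a : Fin (m + 1)) (u : (Fin (m + 1) → ℝ) → ℝ)
    (hu : IsMonotoneSolution a u)
    (hdef : ∀ (c : Fin (m + 1) → ℝ) (j i : Fin (m + 1)),
      pd (pd u j) i c - pd u j c / pd u a c * pd (pd u a) i c = 0) : IsOneDimensional u := by
  have hsmooth : ∀ j, ContDiff ℝ 1 (pd u j) := fun j =>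
    (hu.smooth.fderiv_right (by norm_num)).clm_apply contDiff_const
  set q : Fin (m + 1) → ℝ := fun j => pd u j 0 / pd u a 0 with hq
  have hprop : ∀ j x, pd u j x = q j * pd u a x := by
    intro j x
    have hd : ∀ y, HasFDerivAt (fun y => pd u j y * (pd u a y)⁻¹)
        (0 : (Fin (m + 1) → ℝ) →L[ℝ] ℝ) y := by
      intro y
      have h1 := ((hsmooth j).differentiable one_ne_zero y).hasFDerivAt
      have h2 : HasFDerivAt (fun z => (pd u a z)⁻¹)
          (-(pd u a y ^ 2)⁻¹ • fderiv ℝ (pd u a) y) y :=
        (hasDerivAt_inv (hu.mono y).ne').comp_hasFDerivAt y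
          ((hsmooth a).differentiable one_ne_zero y).hasFDerivAt
      refine (h1.mul h2).congr_fderiv (ContinuousLinearMap.ext fun w => ?_)
      have hw : w = ∑ k, w k • (Pi.single k 1 : Fin (m + 1) → ℝ) := by
        ext l; simp [Finset.sum_apply, Pi.single_apply]
      rw [hw]
      simp only [map_sum, map_smul]
      refine Finset.sum_congr rfl fun k _ => ?_
      have := hdef y j k
      have hne := (hu.mono y).ne'
      rw [sub_eq_zero] at this
      simp only [pd] at this hne
      simp [pd, smul_eq_mul, this]
      field_simp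
      ring_nf
      simp
    have := is_const_of_fderiv_eq_zero (fun y => (hd y).differentiableAt) (fun y => (hd y).fderiv)
      x 0
    simp only [← div_eq_mul_inv] at this
    rw [hq]
    exact (div_eq_iff (hu.mono x).ne').1 this
  have hqa : q a = 1 := div_self (hu.mono 0).ne'
  set N := √(∑ j, q j ^ 2) with hN
  have hN0 : 0 < N := by
    refine sqrt_pos.2 (lt_of_lt_of_le zero_lt_one ?_)
    have := Finset.single_le_sum (f := fun j => q j ^ 2) (fun j _ => sq_nonneg _) (Finset.mem_univ a)
    simpa [hqa] using this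
  set e := fun j => q j / N with he
  have he1 : ∑ j, e j ^ 2 = 1 := by
    simp only [he, div_pow, ← Finset.sum_div]
    rw [hN, sq_sqrt (Finset.sum_nonneg fun j _ => sq_nonneg _)]
    exact div_self (by
      have : 0 < N ^ 2 := by positivity
      rw [hN, sq_sqrt (Finset.sum_nonneg fun j _ => sq_nonneg _)] at this
      exact this.ne')
  refine ⟨e, fun s => u (s • e), he1, fun x => ?_⟩
  set s := ∑ i, e i * x i with hs
  set y := x - s • e with hy
  have horth : ∑ i, y i * q i = 0 := by
    have e1 : ∀ i, q i = N * e i := fun i => by rw [he]; field_simp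
    simp only [hy, e1, Pi.sub_apply, Pi.smul_apply, smul_eq_mul]
    have : ∀ i, (x i - s * e i) * (N * e i) = N * (e i * x i) - N * s * e i ^ 2 := fun i => by ring
    simp only [this, Finset.sum_sub_distrib, ← Finset.mul_sum, he1, ← hs]
    ring
  have hline : ∀ t : ℝ, HasDerivAt (fun t : ℝ => u (s • e + t • y)) 0 t := by
    intro t
    have h1 : HasDerivAt (fun r : ℝ => s • e + r • y) y t := by
      simpa using ((hasDerivAt_id' t).smul_const y).const_add (s • e)
    refine ((hu.smooth.differentiable (by norm_num) _).hasFDerivAt.comp_hasDerivAt t h1).congr_deriv ?_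
    have hw : y = ∑ k, y k • (Pi.single k 1 : Fin (m + 1) → ℝ) := by
      ext l; simp [Finset.sum_apply, Pi.single_apply]
    conv_lhs => arg 2; rw [hw]
    simp only [map_sum, map_smul, smul_eq_mul]
    have : ∀ k, y k * pd u k (s • e + t • y) = pd u a (s • e + t • y) * (y k * q k) := fun k => by
      rw [hprop k]; ring
    simp only [pd] at this
    simp only [this, ← Finset.mul_sum, horth, mul_zero]
  have := is_const_of_deriv_eq_zero (fun t => (hline t).differentiableAt) (fun t => (hline t).deriv) 1 0
  simpa [hy] using this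

/-- A monotone solution periodic along all axes but two is one-dimensional. -/
theorem one_dimensional {n : ℕ} (a b : Fin n) (u : (Fin n → ℝ) → ℝ)
    (hu : IsMonotoneSolution a u) (hper : IsPeriodicOff a b u) : IsOneDimensional u := by
  obtain ⟨m, rfl⟩ : ∃ m, n = m + 1 := ⟨n - 1, by have := a.pos; omega⟩
  have hT : ∀ j, ∃ T : ℝ, 0 < T ∧ (j ≠ a → j ≠ b → ∀ x, u (x + Pi.single j T) = u x) := by
    intro j
    by_cases hj : j ≠ a ∧ j ≠ b
    · obtain ⟨T, hT0, hT⟩ := hper j hj.1 hj.2
      refine ⟨|T|, abs_pos.2 hT0, fun _ _ x => ?_⟩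
      rcases abs_choice T with h | h <;> rw [h]
      · exact hT x
      · have := hT (x + -Pi.single j T)
        rw [neg_add_cancel_right] at this
        rw [Pi.single_neg, ← this]
    · exact ⟨1, one_pos, fun h1 h2 => absurd ⟨h1, h2⟩ hj⟩
  choose T hT0 hT using hT
  exact of_defect_eq_zero a u hu fun c j i =>
    Setup.defect_eq_zero ⟨a, b, u, T, c, hu, hT0, hT⟩ j i

end Vale.Agent.P134.Periodic
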